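import Vale.Agent.P356.Lattice

/-!
P356: an unsmoothed area law for the fluctuations of the entanglement Hamiltonian of every
gapped ground state on the square lattice.
-/

namespace Vale.Agent.Results.P356.FluctuationAreaLaw

open Vale.P356 Finset

/-- For all `q, R, J, Δ` there is a constant such that, for every admissible Hamiltonian with gap
at least `Δ` and every region, the variance of `log ρ_A`, and of every function of `ρ_A` which is
1-Lipschitz in `log ρ_A`, is at most the constant times the boundary. -/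
theorem result (q R : ℕ) (hq : 2 ≤ q) (J Δ : ℝ) (hJ : 0 < J) (hΔ : 0 < Δ) :
    ∃ C : ℝ, ∀ (L : ℕ)
      (h : Finset (Site L) → Matrix (Cfg (Site L) q) (Cfg (Site L) q) ℂ)
      (Ω : Cfg (Site L) q → ℂ),
      Admissible q R J h → HasGap (ham h) Ω Δ → ∀ A : Finset (Site L),
        modularVariance A Ω ≤ C * (edgeBoundary A).card ∧
        ∀ g : ({x // x ∈ A} → Fin q) → ℝ,
          (∀ i j, 0 < schmidt A Ω i → 0 < schmidt A Ω j →
            |g i - g j| ≤ |Real.log (schmidt A Ω i) - Real.log (schmidt A Ω j)|) →
          (∑ i, schmidt A Ω i * g i ^ 2) - (∑ i, schmidt A Ω i * g i) ^ 2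
            ≤ C * (edgeBoundary A).card := by
  refine ⟨fluctConst q R J / Δ, fun L h Ω hA hgap A => ?_⟩
  have key : ∀ g : ({x // x ∈ A} → Fin q) → ℝ, LogLip (cutVec A Ω) g →
      gvar (cutVec A Ω) g ≤ fluctConst q R J / Δ * (edgeBoundary A).card := by
    intro g hg
    rw [div_mul_eq_mul_div, le_div_iff₀ hΔ, mul_comm]
    exact gap_mul_gvar_le_boundary hJ (by omega) hA hgap A hg
  exact ⟨key (fun i => Real.log (schmidt A Ω i)) (fun _ _ _ _ => le_rfl), fun g hg => key g hg⟩

end Vale.Agent.Results.P356.FluctuationAreaLaw
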