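import Vale.Agent.P356.IsingLattice

/-!
P356: the strict area law for every gapped ferromagnetic transverse-field Ising Hamiltonian of
finite range on the square lattice.
-/

namespace Vale.Agent.Results.P356.IsingAreaLaw

open Vale.P356 Finset

/-- Q1 restricted to finite-range ferromagnetic transverse-field Ising Hamiltonians (up to gauge):
such a Hamiltonian is admissible, and if its gap is at least `Δ` then the entropy of every region
is at most a constant times the boundary. -/
theorem result (R : ℕ) (J Δ : ℝ) (hJ : 0 < J) (hΔ : 0 < Δ) :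
    ∃ C : ℝ, ∀ (L : ℕ) (g : Site L → ℝ) (Jc : Site L → Site L → ℝ),
      (∀ x, |g x| ≤ J) → (∀ x y, |Jc x y| ≤ J / 2) →
      (∀ x y, Jc x y ≠ 0 → 1 ≤ l1 x y ∧ l1 x y ≤ R) → Ferromagnetic Jc →
      (∃ h, Admissible 2 R J h ∧ ham h = isingH g Jc) ∧
      ∀ Ω : Cfg (Site L) 2 → ℂ, HasGap (isingH g Jc) Ω Δ →
        ∀ A : Finset (Site L), entropy A Ω ≤ C * (edgeBoundary A).card := by
  refine ⟨512 * (J + J * ((2 * R + 1) ^ 2 : ℕ)) * (J * ((4 * R + 1) ^ 4 : ℕ)) / Δ ^ 2,
    fun L g Jc hg hJc hrange hF => ⟨⟨isingTerm g Jc, isingTerm_admissible hJ hg hJc hrange,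
      ham_isingTerm g Jc⟩, fun Ω hgap A => ?_⟩⟩
  have hr : ∀ x y, Jc x y ≠ 0 → l1 x y ≤ R := fun x y h => (hrange x y h).2
  refine (entropy_le A hF hΔ hJ.le (by positivity) hg (incid_le hJ hJc hr A) hgap).trans ?_
  refine (div_le_div_of_nonneg_right (mul_le_mul_of_nonneg_left (crossWeight_le hJ hJc hr A)
    (by positivity)) (by positivity)).trans (le_of_eq ?_)
  ring

end Vale.Agent.Results.P356.IsingAreaLaw
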